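import Vale.Agent.P153E.Bri
import Vale.Agent.P153D.All

/-!
Transport of the limit theorem along isomorphisms, and the theorem in the space of distributions.
-/

set_option autoImplicit false

namespace Vale.Agent.P153E

open MeasureTheory ProbabilityTheory Filter Topology Set TopologicalSpace Vale.Agent.P153.H212
open Vale.Agent.P153D (Te opn test_on)

variable {D : Opens ℂ} {β : ℝ → ℂ}

theorem distLimit : DistLimit := by
  intro D β h
  obtain ⟨Φ, e0, e, -⟩ := h.phi
  obtain rfl : D = opn Φ := Opens.ext e0.symm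
  refine ⟨(P153D.dist_thm Φ).1, fun {inst} {hB} G hG => ?_⟩
  obtain ⟨P, p1, p2, p3, u, U, hu, hU, H⟩ := (@P153D.dist_thm Φ inst hB).2 G hG
  refine ⟨P, p1, p2, p3, u, U, (mean_iff e).2 hu, mean_uniq e hu, hU, fun δ N k p S hA => ?_⟩
  obtain ⟨X, M, x1, x2, x3, x4, x5, x6⟩ := H δ N k p S ((approx_iff e).1 hA)
  exact ⟨X, M, x1, x2, fun f => ((P153D.cont_ev f).tendsto U).comp x3, x4, x5, x6⟩

theorem IsField.map {E E' : Type} [MeasurableSpace E] [MeasurableSpace E'] (m : E ≃ᵐ E')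
    {ev : E → Te D → ℝ} {ev' : E' → Te D → ℝ} (h : ∀ T, ev' (m T) = ev T)
    (hm : ∀ f, Measurable fun T => ev' T f) {G : ℂ → ℂ → ℝ} {P : Measure E}
    (hP : IsField ev G P) : IsField ev' G (P.map m) := by
  obtain ⟨a, b, c⟩ := hP
  refine ⟨Measure.isProbabilityMeasure_map m.measurable.aemeasurable, fun f => ?_, fun f g => ?_⟩
  · obtain ⟨v, hv⟩ := b f
    refine ⟨v, ?_⟩
    rw [Measure.map_map (hm f) m.measurable, ← hv]
    simp only [Function.comp_def, h]
  · rw [integral_map_equiv, ← c]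
    simp only [h]

theorem InLaw.map {E E' : Type} [TopologicalSpace E] [MeasurableSpace E] [TopologicalSpace E']
    [MeasurableSpace E'] (m : E ≃ᵐ E') (hc : Continuous m) {μ : ℕ → Measure (ℤ × ℤ → ℤ)}
    {X : ℕ → (ℤ × ℤ → ℤ) → E} {P : Measure E} {Y : E → E} (h : InLaw μ X P Y)
    {X' : ℕ → (ℤ × ℤ → ℤ) → E'} {Y' : E' → E'} (hX : ∀ n g, X' n g = m (X n g))
    (hY : ∀ T, Y' (m T) = m (Y T)) : InLaw μ X' (P.map m) Y' := by
  obtain rfl : X' = fun n g => m (X n g) := funext fun n => funext (hX n)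
  refine ⟨fun n => ⟨(h.1 n).1, m.measurable.comp_aemeasurable (h.1 n).2⟩, fun F hF ⟨M, hM⟩ => ?_⟩
  rw [integral_map_equiv]
  simp only [hY]
  exact h.2 (fun T => F (m T)) (hF.comp hc) ⟨M, fun T => hM _⟩

theorem FieldLimit.map {E E' : Type} [AddCommGroup E] [Module ℝ E] [TopologicalSpace E]
    [MeasurableSpace E] [BorelSpace E] [AddCommGroup E'] [Module ℝ E'] [TopologicalSpace E']
    [MeasurableSpace E'] [BorelSpace E'] (Ψ : E ≃L[ℝ] E') {ev : E → Te D → ℝ}
    {ev' : E' → Te D → ℝ} (h : ∀ T, ev' (Ψ T) = ev T) (hm : ∀ f, Measurable fun T => ev T f)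
    (hm' : ∀ f, Measurable fun T => ev' T f) (hF : FieldLimit β ev) : FieldLimit β ev' := by
  intro G hG
  obtain ⟨P, p1, p2, p3, u, U, hu, hun, hU, H⟩ := hF G hG
  let m : E ≃ᵐ E' := Ψ.toHomeomorph.toMeasurableEquiv
  have hmΨ : ∀ T, m T = Ψ T := fun T => rfl
  have h' : ∀ T, ev' (m T) = ev T := h
  refine ⟨P.map m, p1.map m h' hm', fun P' hP' => ?_, fun f hf => ?_, u, Ψ U, hu, hun,
    fun f => by rw [h, hU], fun δ N k p S hA => ?_⟩
  · rw [← p2 _ (hP'.map m.symm (fun T => by rw [← h', m.apply_symm_apply]) hm), m.map_map_symm]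
  · rw [integral_map_equiv]
    simp only [h']
    exact p3 f hf
  · obtain ⟨X, M, x1, x2, x3, x4, x5, x6⟩ := H δ N k p S hA
    refine ⟨fun n g => Ψ (X n g), fun n => Ψ (M n), fun n g f => by rw [h, x1],
      fun n f => by rw [h, x2], fun f => by simpa only [h] using x3 f,
      x4.map m Ψ.continuous (fun n g => ?_) fun T => ?_,
      x5.map m Ψ.continuous (fun n g => rfl) fun T => ?_,
      x6.map m Ψ.continuous (fun n g => rfl) fun T => ?_⟩
    · rw [hmΨ, map_sub]
    · rw [hmΨ, hmΨ, map_smul]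
    · rw [hmΨ, hmΨ, map_add, map_smul]
    · rw [hmΨ, hmΨ, map_smul]

theorem sq_gau {E : Type} [MeasurableSpace E] {P : Measure E} {Z : E → ℝ} (hZ : Measurable Z)
    {v : NNReal} (h : P.map Z = gaussianReal 0 v) :
    Integrable (fun T => Z T * Z T) P ∧ ∫ T, Z T * Z T ∂P = v := by
  have h1 : Integrable (fun x : ℝ => x * x) (gaussianReal 0 v) := by
    have := (memLp_id_gaussianReal (μ := 0) (v := v) 2).integrable_sq
    simpa only [id, sq] using this
  have h2 : ∫ x, x * x ∂gaussianReal 0 v = v := by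
    have := variance_fun_id_gaussianReal (μ := 0) (v := v)
    rw [variance_eq_integral measurable_id'.aemeasurable] at this
    simpa only [integral_id_gaussianReal, sub_zero, sq] using this
  rw [← h] at h1 h2
  have hm : AEStronglyMeasurable (fun x : ℝ => x * x) (P.map Z) := by fun_prop
  rw [integral_map hZ.aemeasurable hm] at h2
  exact ⟨(integrable_map_measure hm hZ.aemeasurable).1 h1, h2⟩

theorem field_iff {E : Type} [MeasurableSpace E] {ev : E → Te D → ℝ}
    (hm : ∀ f, Measurable fun T => ev T f) (ha : ∀ T f g, ev T (f + g) = ev T f + ev T g)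
    (hs : ∀ T f g, ev T (f - g) = ev T f - ev T g) {G : ℂ → ℂ → ℝ} {v : Te D → ℝ}
    (hv : ∀ f, 0 ≤ v f)
    (h1 : ∀ f : Te D, (∫ z in (D : Set ℂ), ∫ w in (D : Set ℂ), f z * G z w * f w) = v f)
    (h2 : ∀ f g : Te D, (∫ z in (D : Set ℂ), ∫ w in (D : Set ℂ), f z * G z w * g w) =
      (v (f + g) - v (f - g)) / 4) (P : Measure E) :
    IsField ev G P ↔ IsProbabilityMeasure P ∧
      ∀ f : Te D, P.map (fun T => ev T f) = gaussianReal 0 (v f).toNNReal := by
  constructor
  · rintro ⟨a, b, c⟩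
    refine ⟨a, fun f => ?_⟩
    obtain ⟨w, hw⟩ := b f
    have h3 := (sq_gau (hm f) hw).2
    rw [c, h1] at h3
    rw [hw, h3, Real.toNNReal_coe]
  · rintro ⟨a, b⟩
    refine ⟨a, fun f => ⟨_, b f⟩, fun f g => ?_⟩
    obtain ⟨i1, e1⟩ := sq_gau (hm _) (b (f + g))
    obtain ⟨i2, e2⟩ := sq_gau (hm _) (b (f - g))
    rw [Real.coe_toNNReal _ (hv _)] at e1 e2
    rw [h2, ← e1, ← e2, ← integral_sub i1 i2, ← integral_div]
    refine integral_congr_ae (ae_of_all _ fun T => ?_)
    simp only [ha, hs]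
    ring

theorem meas_dual {H : Type} [NormedAddCommGroup H] [NormedSpace ℝ H]
    [MeasurableSpace (StrongDual ℝ H)] [BorelSpace (StrongDual ℝ H)] (a : H) :
    Measurable fun T : StrongDual ℝ H => T a :=
  (continuous_eval_const a).measurable

/-- The limit theorem in the dual of a normed space. -/
theorem lim_of {Φ : ℂ ≃ₜ ℂ} (e : ∀ t ∈ Icc (0 : ℝ) 1, P167.H72.Lit.bdry Φ t = β t) {H : Type}
    [NormedAddCommGroup H] [NormedSpace ℝ H] (R : Te (opn Φ) →ₗ[ℝ] H)
    {ν : Measure (StrongDual ℝ H)} (h1 : IsProbabilityMeasure ν)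
    (h2 : ∀ f, ν.map (fun T => T (R f)) = gaussianReal 0 (V (dom Φ) f).toNNReal)
    (h3 : ∀ ν' : Measure (StrongDual ℝ H), IsProbabilityMeasure ν' →
      (∀ f, ν'.map (fun T => T (R f)) = gaussianReal 0 (V (dom Φ) f).toNNReal) → ν' = ν)
    {u : ℂ → ℝ} {U : StrongDual ℝ H} (hu : IsHarm Φ u) (hU : ∀ f, U (R f) = ∫ z, u z * f z)
    (hL : ∀ (δ : ℕ → ℝ) (N k : ℕ → ℕ) (p : ∀ n, ZMod (N n) → ℤ × ℤ)
      (S : ℕ → Finset (Finset (ℤ × ℤ))), Approx Φ δ N k p S →
      ∃ X : ℕ → (ℤ × ℤ → ℤ) → StrongDual ℝ H, (∀ n h f, X n h (R f) = fld (S n) (δ n) f h) ∧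
        InLaw (fun n => law (p n) (S n) (arcs (k n)))
          (fun n h => X n h - ∫ g, X n g ∂law (p n) (S n) (arcs (k n))) ν
          (fun T => √(8 / Real.pi) • T) ∧
        InLaw (fun n => law (p n) (S n) (arcs (k n))) X ν (fun T => U + √(8 / Real.pi) • T) ∧
        InLaw (fun n => law (p n) (S n) free) X ν (fun T => √(8 / Real.pi) • T)) :
    FieldLimit β fun (T : StrongDual ℝ H) f => T (R f) := by
  intro G hG
  have hG' := (P153D.grn_of P153D.conformal P153D.gr1 P153DG.gr2 Φ).2 G hG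
  have hV : ∀ f : Te (opn Φ), 0 ≤ V (dom Φ) f := by
    intro f
    have h := le_V Φ (φ := f) (ψ := (0 : Te (opn Φ))) (test_on f) (test_on 0)
    have e : ((0 : Te (opn Φ)) : ℂ → ℝ) = fun _ => 0 := rfl
    simpa [e] using h
  have hiff := field_iff (ev := fun (T : StrongDual ℝ H) f => T (R f)) (G := G)
    (v := fun f => V (dom Φ) f) (fun f => meas_dual _) (fun T f g => by simp only [map_add])
    (fun T f g => by simp only [map_sub]) hV
    (fun f => (hG' f f (test_on f) (test_on f)).1) (fun f g => (hG' f g (test_on f) (test_on g)).2)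
  obtain ⟨v, -, hv, hF⟩ := field Φ
  refine ⟨ν, (hiff ν).2 ⟨h1, h2⟩, fun P' hP' => h3 P' ((hiff P').1 hP').1 ((hiff P').1 hP').2,
    fun f hf => ?_, u, U, (mean_iff e).2 hu, mean_uniq e hu, hU, fun δ N k p S hA => ?_⟩
  · rw [(sq_gau (meas_dual _) (h2 f)).2, Real.coe_toNNReal _ (hV f)]
    exact V_pos Φ (test_on f) fun h => hf (DFunLike.coe_injective h)
  have hA' := (approx_iff e).1 hA
  obtain ⟨X, x1, x2, x3, x4⟩ := hL δ N k p S hA'
  have hM : ∀ n f, (∫ g, X n g ∂law (p n) (S n) (arcs (k n))) (R f) =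
      ∫ h, fld (S n) (δ n) f h ∂law (p n) (S n) (arcs (k n)) := fun n f => by
    have i1 : Integrable (X n) (law (p n) (S n) (arcs (k n))) :=
      _root_.P153DK.int_unif (x3.1 n).1 _
    rw [ContinuousLinearMap.integral_apply i1]
    simp only [x1]
  refine ⟨X, fun n => ∫ g, X n g ∂law (p n) (S n) (arcs (k n)), x1, hM, fun f => ?_, x2, x3, x4⟩
  have e1 : U (R f) = ∫ z, v z * f z := by
    rw [hU]
    refine integral_congr_ae (ae_of_all _ fun z => ?_)
    by_cases hz : z ∈ dom Φ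
    · simp only [hv u hu hz]
    · have : f z = 0 := image_eq_zero_of_notMem_tsupport fun h => hz (f.tsupport_subset h)
      simp only [this, mul_zero]
  simp only [hM, e1]
  exact (hF δ N k p S hA' f (test_on f)).2.1

end Vale.Agent.P153E
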