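import Vale.Agent.P153E.Defs
import Vale.Agent.P167Z.Curve
import Vale.Agent.P153.H212.Free

/-!
From homeomorphisms of the plane to Jordan domains.
-/

set_option autoImplicit false

namespace Vale.Agent.P153E

open MeasureTheory Filter Topology Set Vale.Agent.P153.H212
open Vale.Agent.P167.H72.Lit (bdry)

variable {D : Set ℂ} {β : ℝ → ℂ} {Φ : ℂ ≃ₜ ℂ}

theorem Marked.phi (h : Marked D β) : ∃ Φ : ℂ ≃ₜ ℂ, dom Φ = D ∧
    (∀ t ∈ Icc (0 : ℝ) 1, bdry Φ t = β t) ∧ Φ 1 = β 0 ∧ Φ (-1) = β (1 / 2) := by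
  obtain ⟨h1, h2, h3, h4, h5, h6, h7⟩ := h
  exact P167Z.exists_homeo ⟨h4, h5, h6⟩ h1 h2 h3 h7

theorem bdry_mul (Φ : ℂ ≃ₜ ℂ) (t : ℝ) :
    bdry Φ t = Φ (Complex.exp ((2 * Real.pi * t : ℝ) * Complex.I)) := by
  rw [bdry]
  push_cast
  rfl

theorem bdry_div (Φ : ℂ ≃ₜ ℂ) (t : ℝ) :
    bdry Φ (t / (2 * Real.pi)) = Φ (Complex.exp (t * Complex.I)) := by
  rw [bdry_mul, mul_div_cancel₀ _ (by positivity)]

theorem approx_iff (h : ∀ t ∈ Icc (0 : ℝ) 1, bdry Φ t = β t) {δ : ℕ → ℝ} {N k : ℕ → ℕ}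
    {p : ∀ n, ZMod (N n) → ℤ × ℤ} {S : ℕ → Finset (Finset (ℤ × ℤ))} :
    Approximates β δ N k p S ↔ Approx Φ δ N k p S := by
  have hπ : 0 < 2 * Real.pi := by positivity
  refine and_congr_right fun _ => and_congr_right fun _ => forall₂_congr fun ε _ =>
    eventually_congr (Eventually.of_forall fun n => ⟨?_, ?_⟩)
  · rintro ⟨τ, h1, h2, h3, h4, h5, h6⟩
    refine ⟨fun t => τ (t / (2 * Real.pi)), h1.comp (continuous_id.div_const _),
      fun s t hst => h2 (div_le_div_of_nonneg_right hst hπ.le), by simp only [zero_div, h3],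
      ?_, by simp only [div_self hπ.ne', h5], fun t ht => ?_⟩
    · have e : Real.pi / (2 * Real.pi) = 1 / 2 := by field_simp
      simp only [e, h4]
    · have h7 : t / (2 * Real.pi) ∈ Icc (0 : ℝ) 1 :=
        ⟨div_nonneg ht.1 hπ.le, (div_le_one hπ).2 ht.2⟩
      rw [← bdry_div, h _ h7]
      exact h6 _ h7
  · rintro ⟨τ, h1, h2, h3, h4, h5, h6⟩
    refine ⟨fun t => τ (2 * Real.pi * t), h1.comp (continuous_const.mul continuous_id),
      fun s t hst => h2 (mul_le_mul_of_nonneg_left hst hπ.le), by simp only [mul_zero, h3],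
      ?_, by simp only [mul_one, h5], fun t ht => ?_⟩
    · have e : 2 * Real.pi * (1 / 2) = Real.pi := by ring
      simp only [e, h4]
    · rw [← h t ht, bdry_mul]
      exact h6 _ ⟨mul_nonneg hπ.le ht.1, mul_le_of_le_one_right hπ.le ht.2⟩

theorem exp_arg {z : ℂ} (h : ‖z‖ = 1) : Complex.exp (z.arg * Complex.I) = z := by
  have := Complex.norm_mul_exp_arg_mul_I z
  rwa [h, Complex.ofReal_one, one_mul] at this

theorem arcPlus_eq (Φ : ℂ ≃ₜ ℂ) : arcPlus Φ = bdry Φ '' Ioo 0 (1 / 2) := by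
  have hπ := Real.pi_pos
  apply Subset.antisymm
  · rintro _ ⟨z, ⟨h1, h2⟩, rfl⟩
    have a1 : 0 < z.arg := lt_of_le_of_ne (Complex.arg_nonneg_iff.2 h2.le) fun k =>
      h2.ne' (Complex.arg_eq_zero_iff.1 k.symm).2
    have a2 : z.arg < Real.pi := Complex.arg_lt_pi_iff.2 (Or.inr h2.ne')
    refine ⟨z.arg / (2 * Real.pi), ⟨by positivity, ?_⟩, by rw [bdry_div, exp_arg h1]⟩
    rw [div_lt_iff₀ (by positivity)]
    linarith
  · rintro _ ⟨t, ⟨h1, h2⟩, rfl⟩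
    refine ⟨_, ⟨Complex.norm_exp_ofReal_mul_I _, ?_⟩, (bdry_mul Φ t).symm⟩
    rw [Complex.exp_ofReal_mul_I_im]
    exact Real.sin_pos_of_pos_of_lt_pi (by positivity) (by nlinarith)

theorem arcMinus_eq (Φ : ℂ ≃ₜ ℂ) : arcMinus Φ = bdry Φ '' Ioo (1 / 2) 1 := by
  have hπ := Real.pi_pos
  apply Subset.antisymm
  · rintro _ ⟨z, ⟨h1, h2⟩, rfl⟩
    have a1 : z.arg < 0 := Complex.arg_neg_iff.2 h2
    have a2 := Complex.neg_pi_lt_arg z
    refine ⟨(z.arg + 2 * Real.pi) / (2 * Real.pi), ⟨?_, ?_⟩, ?_⟩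
    · rw [lt_div_iff₀ (by positivity)]
      linarith
    · rw [div_lt_iff₀ (by positivity)]
      linarith
    · rw [bdry_div]
      push_cast
      rw [add_mul, Complex.exp_add, Complex.exp_two_pi_mul_I, mul_one, exp_arg h1]
  · rintro _ ⟨t, ⟨h1, h2⟩, rfl⟩
    refine ⟨_, ⟨Complex.norm_exp_ofReal_mul_I _, ?_⟩, (bdry_mul Φ t).symm⟩
    rw [Complex.exp_ofReal_mul_I_im, ← Real.sin_sub_two_pi]
    exact Real.sin_neg_of_neg_of_neg_pi_lt (by nlinarith) (by nlinarith)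

theorem mean_iff (h : ∀ t ∈ Icc (0 : ℝ) 1, bdry Φ t = β t) {u : ℂ → ℝ} :
    IsMean (dom Φ) β u ↔ IsHarm Φ u := by
  unfold IsMean IsHarm
  rw [arcPlus_eq, arcMinus_eq, forall_mem_image, forall_mem_image]
  refine and_congr_right fun _ => and_congr_right fun _ => and_congr
    (forall₂_congr fun t ht => ?_) (forall₂_congr fun t ht => ?_)
  · rw [h t ⟨ht.1.le, by linarith [ht.2]⟩]
  · rw [h t ⟨by linarith [ht.1], ht.2.le⟩]

theorem hasApprox : HasApprox := by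
  intro D β h
  refine ⟨fun a ha b hb hab => ?_, fun δ h1 h2 => ?_⟩
  · obtain ⟨h1, h2, h3, h4, h5, h6, h7⟩ := h
    obtain ⟨β', g1, g2, g3, g4⟩ := P167Z.exists_param ⟨h4, h5, h6⟩ (h7 ▸ ha) (h7 ▸ hb) hab
    exact ⟨β', ⟨h1, h2, h3, g1.1, g1.2.1, g1.2.2, h7.trans g2.symm⟩, g3, g4⟩
  · obtain ⟨Φ, -, e, -⟩ := h.phi
    obtain ⟨N, k, p, S, hA⟩ := existence Φ δ h1 h2
    exact ⟨N, k, p, S, (approx_iff e).2 hA⟩

theorem curveLimit : CurveLimit := by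
  obtain ⟨Ω, m, P, γ, h1, h2, h3⟩ := curve_thm
  refine ⟨Ω, m, P, γ, h1, h2, fun D β h => ?_⟩
  obtain ⟨Φ, rfl, e, e1, e2⟩ := h.phi
  rw [← e1, ← e2]
  refine ⟨(h3 Φ).1, fun ψ hψ => ?_⟩
  obtain ⟨G, g1, g2, g3⟩ := (h3 Φ).2 ψ hψ
  exact ⟨G, g1, g2, fun δ N k p S hA => g3 δ N k p S ((approx_iff e).1 hA)⟩

theorem mean_uniq (h : ∀ t ∈ Icc (0 : ℝ) 1, bdry Φ t = β t) {u : ℂ → ℝ} (hu : IsHarm Φ u)
    (u' : ℂ → ℝ) (h' : IsMean (dom Φ) β u') : EqOn u' u (dom Φ) := by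
  obtain ⟨v, -, hv, -⟩ := field Φ
  exact (hv u' ((mean_iff h).1 h')).trans (hv u hu).symm

end Vale.Agent.P153E
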