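import Vale.Agent.P153.H212.Def

/-!
The scaling limits of the uniform odd heights in Jordan domains: the definitions. The lattice
domains, the heights, the field `h_δ(φ)`, the interface and chordal SLE in the half-plane are those
of the imported file.
-/

set_option autoImplicit false

namespace Vale.Agent.P153E

open MeasureTheory ProbabilityTheory Filter Topology Set TopologicalSpace
open Vale.Agent.P153.H212 (Encloses curve Heights arcs free law fld IsInterface IsSLE)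
open scoped FourierTransform

/-- `D` is a bounded domain whose boundary is the simple closed curve `β` on `[0, 1]`. It is marked
at `a = β 0` and `b = β (1/2)`; the arcs are `A_+ = β (0, 1/2)` and `A_- = β (1/2, 1)`. -/
def Marked (D : Set ℂ) (β : ℝ → ℂ) : Prop :=
  IsOpen D ∧ IsConnected D ∧ Bornology.IsBounded D ∧ ContinuousOn β (Icc 0 1) ∧
    InjOn β (Ico 0 1) ∧ β 1 = β 0 ∧ frontier D = β '' Icc 0 1

/-- Lattice domains of mesh `δ n → 0`, enclosed by the polygons `p n` with `N n` vertices, marked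
at the midpoints of the boundary edges `p (-1) p 0` and `p (k - 1) p k`, approximate the marked
domain: the marked boundary curves converge to `β` uniformly modulo reparametrization. -/
def Approximates (β : ℝ → ℂ) (δ : ℕ → ℝ) (N k : ℕ → ℕ) (p : ∀ n, ZMod (N n) → ℤ × ℤ)
    (S : ℕ → Finset (Finset (ℤ × ℤ))) : Prop :=
  (∀ n, 0 < δ n ∧ 0 < k n ∧ k n < N n ∧ Encloses (p n) (S n)) ∧ Tendsto δ atTop (𝓝 0) ∧
  ∀ ε > 0, ∀ᶠ n in atTop, ∃ τ : ℝ → ℝ, Continuous τ ∧ Monotone τ ∧ τ 0 = -1 / 2 ∧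
    τ (1 / 2) = k n - 1 / 2 ∧ τ 1 = N n - 1 / 2 ∧
    ∀ t ∈ Icc (0 : ℝ) 1, dist (δ n * curve (p n) (τ t)) (β t) < ε

/-- `u` is bounded and harmonic in `D` with the boundary values `1` on `A_+` and `-1` on `A_-`. -/
def IsMean (D : Set ℂ) (β : ℝ → ℂ) (u : ℂ → ℝ) : Prop :=
  InnerProductSpace.HarmonicOnNhd u D ∧ (∀ z ∈ D, |u z| ≤ 1) ∧
    (∀ t ∈ Ioo (0 : ℝ) (1 / 2), Tendsto u (𝓝[D] β t) (𝓝 1)) ∧
    ∀ t ∈ Ioo (1 / 2 : ℝ) 1, Tendsto u (𝓝[D] β t) (𝓝 (-1))

/-- `G` is the Green function of `-Δ` in `D` with zero boundary values: for every pole `w` in `D`,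
`G(z, w) = (2π)⁻¹ log (1 / |z - w|) + H(z)` with `H` harmonic in `D`, and `G(z, w) → 0` as `z`
tends to a boundary point. -/
def IsGreen (D : Set ℂ) (G : ℂ → ℂ → ℝ) : Prop :=
  ∀ w ∈ D, (∃ H : ℂ → ℝ, InnerProductSpace.HarmonicOnNhd H D ∧
      ∀ z ∈ D, z ≠ w → G z w = (2 * Real.pi)⁻¹ * Real.log (1 / ‖z - w‖) + H z) ∧
    ∀ x ∈ frontier D, Tendsto (fun z => G z w) (𝓝[D] x) (𝓝 0)

/-- `P` is the law, on a space `E` of distributions `T` with values `ev T f` on the test functions,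
of a centred Gaussian field with `E[Φ(f) Φ(g)] = ∬ f(z) G(z, w) g(w) dz dw`. -/
def IsField {D : Opens ℂ} {E : Type} [MeasurableSpace E] (ev : E → TestFunction D ℝ ⊤ → ℝ)
    (G : ℂ → ℂ → ℝ) (P : Measure E) : Prop :=
  IsProbabilityMeasure P ∧ (∀ f, ∃ v, P.map (fun T => ev T f) = gaussianReal 0 v) ∧
    ∀ f g, ∫ T, ev T f * ev T g ∂P = ∫ z in (D : Set ℂ), ∫ w in (D : Set ℂ), f z * G z w * g w

/-- Convergence in law in `E` of `X n` (under `μ n`) to `Y` (under `P`). -/
def InLaw {E : Type} [TopologicalSpace E] [MeasurableSpace E] (μ : ℕ → Measure (ℤ × ℤ → ℤ))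
    (X : ℕ → (ℤ × ℤ → ℤ) → E) (P : Measure E) (Y : E → E) : Prop :=
  (∀ n, IsProbabilityMeasure (μ n) ∧ AEMeasurable (X n) (μ n)) ∧
  ∀ F : E → ℝ, Continuous F → (∃ M, ∀ T, |F T| ≤ M) →
    Tendsto (fun n => ∫ h, F (X n h) ∂μ n) atTop (𝓝 (∫ T, F (Y T) ∂P))

/-- The limit of the field in a space `E` of distributions on `D`: there is exactly one law `P` on
`E` of the Gaussian free field `Φ_D`, and it is not degenerate; the harmonic function `u` (there is
exactly one), the fields `h_δ` and their means are elements `U`, `X n h`, `M n` of `E`; the means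
converge to `u`; and in law in `E`, `h_δ - E h_δ → √(8/π) Φ_D` and `h_δ → u + √(8/π) Φ_D` for the
boundary values `±1` on the two arcs, and `h_δ → √(8/π) Φ_D` for the free boundary values `±1`. -/
def FieldLimit {D : Opens ℂ} {E : Type} [AddCommGroup E] [Module ℝ E] [TopologicalSpace E]
    [MeasurableSpace E] (β : ℝ → ℂ) (ev : E → TestFunction D ℝ ⊤ → ℝ) : Prop :=
  ∀ G, IsGreen D G → ∃ P : Measure E, IsField ev G P ∧ (∀ P', IsField ev G P' → P' = P) ∧
    (∀ f, f ≠ 0 → 0 < ∫ T, ev T f * ev T f ∂P) ∧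
    ∃ (u : ℂ → ℝ) (U : E), IsMean D β u ∧ (∀ u', IsMean D β u' → EqOn u' u D) ∧
    (∀ f, ev U f = ∫ z, u z * f z) ∧
    ∀ (δ : ℕ → ℝ) (N k : ℕ → ℕ) (p : ∀ n, ZMod (N n) → ℤ × ℤ)
      (S : ℕ → Finset (Finset (ℤ × ℤ))), Approximates β δ N k p S →
      ∃ (X : ℕ → (ℤ × ℤ → ℤ) → E) (M : ℕ → E),
        (∀ n h f, ev (X n h) f = fld (S n) (δ n) f h) ∧
        (∀ n f, ev (M n) f = ∫ h, fld (S n) (δ n) f h ∂law (p n) (S n) (arcs (k n))) ∧
        (∀ f, Tendsto (fun n => ev (M n) f) atTop (𝓝 (ev U f))) ∧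
        InLaw (fun n => law (p n) (S n) (arcs (k n))) (fun n h => X n h - M n) P
          (fun T => √(8 / Real.pi) • T) ∧
        InLaw (fun n => law (p n) (S n) (arcs (k n))) X P (fun T => U + √(8 / Real.pi) • T) ∧
        InLaw (fun n => law (p n) (S n) free) X P (fun T => √(8 / Real.pi) • T)

/-- `J` embeds the test functions densely in the Banach space `H` with the norm of `H^s(ℝ²)`: `H` is
the Sobolev space `H^s_0(D)`, and its dual is `H^{-s}(D)`. -/
def IsH0 {D : Opens ℂ} {H : Type} [NormedAddCommGroup H] [NormedSpace ℝ H] (s : ℝ)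
    (J : TestFunction D ℝ ⊤ →ₗ[ℝ] H) : Prop :=
  CompleteSpace H ∧ DenseRange J ∧
    ∀ f, ‖J f‖ ^ 2 = ∫ ξ : ℂ, (1 + ‖ξ‖ ^ 2) ^ s * ‖𝓕 (fun z => (f z : ℂ)) ξ‖ ^ 2

/-- `ψ` is a conformal map from the upper half-plane onto `D`, extended continuously to the
boundary, which takes `0` to `a` and `∞` to `b`. -/
def IsUnif (D : Set ℂ) (a b : ℂ) (ψ : ℂ → ℂ) : Prop :=
  DifferentiableOn ℂ ψ {z | 0 < z.im} ∧ BijOn ψ {z | 0 < z.im} D ∧
    ContinuousOn ψ {z | 0 ≤ z.im} ∧ ψ 0 = a ∧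
    Tendsto ψ (Bornology.cobounded ℂ ⊓ 𝓟 {z | 0 ≤ z.im}) (𝓝 b)

/-- Every pair of distinct boundary points of a Jordan domain is the pair of marked points of a
parametrization; every marked Jordan domain has approximations, for every sequence of meshes. -/
def HasApprox : Prop :=
  ∀ D β, Marked D β →
    (∀ a ∈ frontier D, ∀ b ∈ frontier D, a ≠ b → ∃ β', Marked D β' ∧ β' 0 = a ∧ β' (1 / 2) = b) ∧
    ∀ δ : ℕ → ℝ, (∀ n, 0 < δ n) → Tendsto δ atTop (𝓝 0) →
      ∃ (N k : ℕ → ℕ) (p : ∀ n, ZMod (N n) → ℤ × ℤ) (S : ℕ → Finset (Finset (ℤ × ℤ))),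
        Approximates β δ N k p S

/-- The Green function exists, and the field converges in law in `𝓓'(D)` (with its Borel sets). -/
def DistLimit : Prop :=
  ∀ (D : Opens ℂ) (β : ℝ → ℂ), Marked D β → (∃ G, IsGreen D G) ∧
    ∀ [MeasurableSpace (Distribution D ℝ ⊤)] [BorelSpace (Distribution D ℝ ⊤)],
      FieldLimit β fun (T : Distribution D ℝ ⊤) f => T f

/-- The space `H^s_0(D)` exists, and the field converges in law in its dual `H^{-s}(D)`, `s > 1`. -/
def SobLimit : Prop :=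
  ∀ (D : Opens ℂ) (β : ℝ → ℂ), Marked D β → ∀ s : ℝ, 1 < s →
    (∃ (H : Type) (_ : NormedAddCommGroup H) (_ : NormedSpace ℝ H)
      (J : TestFunction D ℝ ⊤ →ₗ[ℝ] H), IsH0 s J) ∧
    ∀ (H : Type) [NormedAddCommGroup H] [NormedSpace ℝ H] (J : TestFunction D ℝ ⊤ →ₗ[ℝ] H),
      IsH0 s J → ∀ [MeasurableSpace (StrongDual ℝ H)] [BorelSpace (StrongDual ℝ H)],
        FieldLimit β fun (T : StrongDual ℝ H) f => T (J f)

/-- There is a chordal `SLE_4` trace `γ` in the upper half-plane such that for every marked Jordan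
domain `(D; a, b)` there is a conformal map `ψ` from the half-plane onto `(D; a, b)`, and for every
such `ψ` and every approximation the interfaces exist and converge in law to the curve `ψ ∘ γ`, in
the uniform metric modulo increasing reparametrization: the expectations of all bounded continuous
functions of the curve which are invariant under increasing reparametrization converge. -/
def CurveLimit : Prop :=
  ∃ (Ω : Type) (_ : MeasurableSpace Ω) (P : Measure Ω) (γ : Ω → ℝ → ℂ),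
    IsProbabilityMeasure P ∧ IsSLE 4 P γ ∧
    ∀ D β, Marked D β → (∃ ψ, IsUnif D (β 0) (β (1 / 2)) ψ) ∧
      ∀ ψ, IsUnif D (β 0) (β (1 / 2)) ψ → ∃ G : Ω → C(unitInterval, ℂ),
        (∀ᵐ ω ∂P, G ω 1 = β (1 / 2) ∧
          ∀ t : unitInterval, (t : ℝ) < 1 → G ω t = ψ (γ ω (t / (1 - t)))) ∧
        (∀ F : C(unitInterval, ℂ) → ℝ, Continuous F → AEMeasurable (fun ω => F (G ω)) P) ∧
        ∀ (δ : ℕ → ℝ) (N k : ℕ → ℕ) (p : ∀ n, ZMod (N n) → ℤ × ℤ)
          (S : ℕ → Finset (Finset (ℤ × ℤ))), Approximates β δ N k p S →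
          (∀ n, ∀ h ∈ Heights (p n) (S n) (arcs (k n)), ∃ c,
            IsInterface (p n) (k n) (S n) (δ n) h c) ∧
          ∀ c : ∀ _ : ℕ, (ℤ × ℤ → ℤ) → C(unitInterval, ℂ),
            (∀ n, ∀ h ∈ Heights (p n) (S n) (arcs (k n)),
              IsInterface (p n) (k n) (S n) (δ n) h (c n h)) →
            ∀ F : C(unitInterval, ℂ) → ℝ, Continuous F → (∃ M, ∀ x, |F x| ≤ M) →
              (∀ (x : C(unitInterval, ℂ)) (σ : C(unitInterval, unitInterval)), StrictMono σ →
                Function.Surjective σ → F (x.comp σ) = F x) →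
              Tendsto (fun n => ∫ h, F (c n h) ∂law (p n) (S n) (arcs (k n))) atTop
                (𝓝 (∫ ω, F (G ω) ∂P))

end Vale.Agent.P153E
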