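import Vale.Agent.P153E.Abs

/-!
The theorem in the negative Sobolev spaces.
-/

set_option autoImplicit false

namespace Vale.Agent.P153E

open MeasureTheory ProbabilityTheory Filter Topology Set TopologicalSpace Vale.Agent.P153.H212
open Vale.Agent.P153D (Te opn test_on)
open Vale.Agent.P153DH (Rep H0 Hm)
open scoped FourierTransform

theorem rep_uq {s : ℝ} {D : Set ℂ} {φ : ℂ → ℝ} {a b : H0 s D} (ha : Rep s φ a) (hb : Rep s φ b) :
    a = b := Subtype.ext (Lp.ext (ha.trans hb.symm))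

theorem rep_norm {s : ℝ} {φ : ℂ → ℝ} {a : Lp ℂ 2 (volume : Measure ℂ)} (ha : Rep s φ a) :
    ‖a‖ ^ 2 = ∫ ξ : ℂ, (1 + ‖ξ‖ ^ 2) ^ s * ‖𝓕 (fun z => (φ z : ℂ)) ξ‖ ^ 2 := by
  rw [← real_inner_self_eq_norm_sq, L2.inner_def]
  refine integral_congr_ae ?_
  filter_upwards [ha] with ξ h
  rw [real_inner_self_eq_norm_sq, h, norm_mul, mul_pow, Complex.norm_real, Real.norm_eq_abs, sq_abs,
    ← Real.rpow_natCast (_ ^ (s / 2)), ← Real.rpow_mul (by positivity)]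
  congr 2
  push_cast
  ring

theorem exists_R (D : Opens ℂ) {s : ℝ} (hs : 1 < s) :
    ∃ R : Te D →ₗ[ℝ] H0 s D, (∀ f : Te D, Rep s f (R f)) ∧ IsH0 s R := by
  obtain ⟨k1, k2, -⟩ := P153DH.kit_thm s D hs
  choose r hr using fun f : Te D => k1 f (test_on f)
  have lin : ∀ (c : ℝ) (f g : Te D), r (c • f + g) = c • r f + r g := fun c f g =>
    rep_uq (hr _) (P153DH.rep_lin (test_on f) (test_on g) c (hr f) (hr g))
  have r0 : r 0 = 0 := rep_uq (hr _) (P153DH.rep_zero s)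
  refine ⟨⟨⟨r, fun f g => ?_⟩, fun c f => ?_⟩, hr,
    (Submodule.isClosed_topologicalClosure _).completeSpace_coe, k2.mono ?_,
    fun f => rep_norm (hr f)⟩
  · have := lin 1 f g
    rwa [one_smul, one_smul] at this
  · have := lin c f 0
    rwa [add_zero, r0, add_zero] at this
  · rintro a ⟨φ, h1, h2⟩
    exact ⟨⟨φ, h1.1, h1.2.1, h1.2.2⟩, rep_uq (hr _) h2⟩

theorem lim_R {Φ : ℂ ≃ₜ ℂ} {β : ℝ → ℂ} (e : ∀ t ∈ Icc (0 : ℝ) 1, P167.H72.Lit.bdry Φ t = β t)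
    {s : ℝ} (hs : 1 < s) (R : Te (opn Φ) →ₗ[ℝ] H0 s (dom Φ))
    (hR : ∀ f : Te (opn Φ), Rep s f (R f)) :
    FieldLimit β fun (T : StrongDual ℝ (H0 s (dom Φ))) f => T (R f) := by
  obtain ⟨-, ν, h1, h2, u, U, hu, hU, H⟩ := P153D.sob_thm Φ s hs
  refine lim_of e R h1.1 (fun f => h1.2 f _ (test_on f) (hR f)) (fun ν' a b => h2 ν' ⟨a, ?_⟩) hu
    (fun f => hU f _ (test_on f) (hR f)) fun δ N k p S hA => ?_
  · intro φ f c d
    have := b ⟨φ, c.1, c.2.1, c.2.2⟩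
    rwa [rep_uq (hR ⟨φ, c.1, c.2.1, c.2.2⟩) d] at this
  · obtain ⟨X, x1, x2, x3, x4⟩ := H δ N k p S hA
    exact ⟨X, fun n h f => x1 n h f _ (test_on f) (hR f), x2, x3, x4⟩

theorem lim_iso {D : Opens ℂ} {β : ℝ → ℂ} {s : ℝ} {H H' : Type} [NormedAddCommGroup H]
    [NormedSpace ℝ H] [NormedAddCommGroup H'] [NormedSpace ℝ H'] {J : Te D →ₗ[ℝ] H}
    {J' : Te D →ₗ[ℝ] H'} (h : IsH0 s J) (h' : IsH0 s J') [MeasurableSpace (StrongDual ℝ H)]
    [BorelSpace (StrongDual ℝ H)] [MeasurableSpace (StrongDual ℝ H')]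
    [BorelSpace (StrongDual ℝ H')] (hF : FieldLimit β fun (T : StrongDual ℝ H) f => T (J f)) :
    FieldLimit β fun (T : StrongDual ℝ H') f => T (J' f) := by
  have := h.1
  have := h'.1
  have hn : ∀ f, ‖J' (LinearEquiv.refl ℝ (Te D) f)‖ = ‖J f‖ := fun f =>
    (pow_left_inj₀ (norm_nonneg _) (norm_nonneg _) two_ne_zero).1
      ((h'.2.2 f).trans (h.2.2 f).symm)
  let ι : H ≃ₗᵢ[ℝ] H' := (LinearEquiv.refl ℝ (Te D)).extendOfIsometry J J' h.2.1 h'.2.1 hn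
  have hι : ∀ f, ι.symm (J' f) = J f := fun f =>
    LinearEquiv.extendOfIsometry_symm_eq _ J J' h.2.1 h'.2.1 hn f
  refine hF.map (ι.toContinuousLinearEquiv.arrowCongr (ContinuousLinearEquiv.refl ℝ ℝ))
    (fun T => funext fun f => ?_) (fun f => meas_dual _) fun f => meas_dual _
  exact congrArg T (hι f)

theorem sobLimit : SobLimit := by
  intro D β h s hs
  obtain ⟨Φ, e0, e, -⟩ := h.phi
  obtain rfl : D = opn Φ := Opens.ext e0.symm
  obtain ⟨R, h1, h2⟩ := exists_R (opn Φ) hs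
  exact ⟨⟨_, _, _, R, h2⟩, fun H _ _ J hJ _ _ => lim_iso h2 hJ (lim_R e hs R h1)⟩

theorem everything : HasApprox ∧ DistLimit ∧ SobLimit ∧ CurveLimit ∧ PlaneTheorem :=
  ⟨hasApprox, distLimit, sobLimit, curveLimit, plane⟩

end Vale.Agent.P153E
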